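import Vale.Agent.P223.H440.Fin4
import Vale.Agent.P223.H440.NC6
import Vale.Agent.P223.H441.Par3
import Vale.Agent.P223.H441.Bil4
import Vale.Agent.P223.H765.Kaz7
import Vale.Agent.P223.H367.Chords
import Vale.Agent.P223.H566.Tru3
import Vale.Agent.P223.H566.SobR3
import Vale.Agent.P223.H316.Liou2

/-! Stage 4: metrics without conjugate points. -/

namespace Vale.Agent.P223.H440

open scoped ContDiff InnerProductSpace ENNReal
open MeasureTheory Vale.Agent.P223.H Vale.Agent.P223.X Vale.Agent.P223.H566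
open Vale.Agent.P223.H66 (ScGe SobX Vl scX YamX HS hS_of scal_eq)
open Vale.Agent.P223.H765.NC (SpecSobR)

/-- the Sobolev inequality on `ℝ^n` -/
theorem specSobR : SpecSobR :=
  H566.SobR.sobR (H566.Tru.specTru H316.specFlow' H316.specLiou
    (H367.specChd (H765.Kaz.specKaz H316.specFlow' H316.specLiou)))

section man
variable {n : ℕ} {M : Type} [TopologicalSpace M] [CompactSpace M] [T2Space M] [ConnectedSpace M]
  {c : M → J.Ch n M} {g : M → J.Mtx n}

/-- the Sobolev inequality for metrics without conjugate points -/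
theorem sobXW_noConj {y : ℝ} (hR : ∀ (G : J.Mtx n)
    (Φ : ℝ → J.E n × J.E n → J.E n × J.E n), H765.NC.Geo G Φ → ∀ f : J.E n → ℝ, ContDiff ℝ 1 f →
    HasCompactSupport f →
    y * (∫ x, |f x| ^ (2 * (n : ℝ) / (n - 2)) * √(G x).det) ^ (((n : ℝ) - 2) / n) ≤
      ∫ x, J.gsq G f x * √(G x).det) (hc : J.Atl c) (d : FinalM.Data c) (hg : J.Met c g)
    (h : J.NoConj c g) [MeasurableSpace d.X] [BorelSpace d.X] {μ : Measure d.X}
    (hμ : VolX d.C (d.B.G g) μ) : H691.SobXW d.C (d.B.G g) μ (fun _ => 0) y := by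
  obtain ⟨c', hf⟩ := H691.UY.exists_covAtl hc d.C
  have hc' := H441.Par.atl_of_cov hc hf
  have hg' := H441.Par.met_of_cov hg hf
  have hP := h d.X _ d.C.π c' d.sc hf
  obtain ⟨x⟩ := (inferInstance : Nonempty d.X)
  obtain ⟨e, he, -, -⟩ := NC.gl_of_pole (hP x)
  obtain ⟨Φ, hΦ⟩ := NC.exists_geo hc' hg' hP he
  exact NC.sobXW_of_R hc d.hCB hf hg hc' he hμ fun f h1 h2 => hR _ Φ hΦ f h1 h2

end man

/-- The final theorem of Stage 4. -/
theorem finalNC (n : ℕ) (hn : 3 ≤ n) : ∃ A : ℝ, 0 < A ∧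
    ∀ (M : Type) [TopologicalSpace M] [CompactSpace M] [T2Space M] [ConnectedSpace M]
      [MeasurableSpace M] [BorelSpace M] (c : M → J.Ch n M), J.Atl c →
      ∀ (g : M → J.Mtx n) (μ : Measure M), J.Met c g → J.Vol c g μ →
      ∀ (g₁ : M → J.Mtx n) (K : ℝ), J.Met c g₁ → J.NoConj c g₁ → 1 ≤ K → J.Bil c g₁ g K →
        J.sv c ≤ ENNReal.ofReal (A * K ^ ((n : ℝ) ^ 2 / 2)) * J.L n μ (J.sn c g) ∧
        ∀ s κ : ℝ, 0 < s → (∀ p, -κ ≤ J.scal (g p) (c p p) ∧ J.scal (g p) (c p p) ≤ -s) →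
          ∀ (f : M → ℝ) (μ' : Measure M), J.Sm c f → J.Vol c (J.conf c f g) μ' →
            J.sv c ≤ ENNReal.ofReal (A * K ^ ((n : ℝ) ^ 2 / 2) * (κ / s) ^ ((n : ℝ) / 2)) *
              J.L n μ' (J.sn c (J.conf c f g)) := by
  obtain ⟨A, hA⟩ := exists_A hn
  obtain ⟨y₁, hy₁, hR⟩ := specSobR n hn
  have hcU := cU_pos hA.1 hn
  set r := y₁ ^ (-(n : ℝ) / 2) with hr
  have hr0 : 0 < r := Real.rpow_pos_of_pos hy₁ _
  refine ⟨cU n A * r, mul_pos hcU hr0, ?_⟩
  intro M _ _ _ _ _ _ c hc g μ hg hμ g₁ K hg₁ hNC hK hb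
  have hK0 : 0 < K := by linarith
  have hu := Vale.Agent.P223.X.hu
  have h1 : J.sv c ≤ ENNReal.ofReal (cU n A * r * K ^ ((n : ℝ) ^ 2 / 2)) *
      J.L n μ (J.sn c g) := by
    obtain ⟨d⟩ := FinalM.exists_data hu (by omega) c hc
    have hM := hu.met n M d.X d.Γ d.I c d.B d.C hc d.hCB
    have hm := hM.1 g hg
    let _ : MeasurableSpace d.X := borel d.X
    have : BorelSpace d.X := ⟨rfl⟩
    obtain ⟨-, ⟨μX, hμX⟩, -⟩ := Vale.Agent.P223.X.hb.vol n M d.X d.Γ d.I d.C (d.B.G g) hm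
    obtain ⟨-, ⟨μ₁, hμ₁⟩, -⟩ := Vale.Agent.P223.X.hb.vol n M d.X d.Γ d.I d.C (d.B.G g₁)
      (hM.1 g₁ hg₁)
    have h2 := sobXW_noConj hR hc d hg₁ hNC hμ₁
    have h3 := H441.Bil.sob0_of_bil hn hc d.hCB hg₁ hg hμ₁ hμX hb hK hy₁ continuous_const
      (fun _ => le_rfl) h2
    have hS : HS d := hS_of hc d ⟨g₁, hg₁, H441.covSpin_of_noConj (by omega) hc hg₁ hNC⟩
    have h4 := sv_U hA hn hc d hS hg hμ hμX le_rfl (div_pos hy₁ (pow_pos hK0 n))
      (β := fun _ => 0) continuous_const (fun _ => le_rfl)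
      (H441.Bil.sobXW_mono hm hμX continuous_const
        ((continuous_const.mul (continuous_const.max (scX_cont' hm))).add continuous_const)
        (fun x => by
          have := le_max_left 0 (scX d.C (d.B.G g) x)
          simpa using this) h3)
    simp only [add_zero] at h4
    refine h4.trans (mul_le_mul_left (ENNReal.ofReal_le_ofReal (le_of_eq ?_)) _)
    rw [one_div_div, Real.div_rpow (pow_nonneg hK0.le _) hy₁.le, ← Real.rpow_natCast K n,
      ← Real.rpow_mul hK0.le, hr, neg_div, Real.rpow_neg hy₁.le, div_eq_inv_mul, mul_assoc]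
    congr 3
    ring
  refine ⟨h1, fun s κ hs h2 f μ' hf hμ' => ?_⟩
  have hκ0 : 0 ≤ κ := by
    obtain ⟨p⟩ : Nonempty M := inferInstance
    have := h2 p
    linarith
  have h4 := L_conf hn hc hg hμ hs (fun p => (h2 p).2) (β := fun _ => 0) (fun _ => le_rfl)
    (κ := κ) (fun p => by
      have := (h2 p).1
      unfold J.sn
      rw [add_zero]
      exact max_le hκ0 (by linarith)) hf hμ'
  simp only [add_zero] at h4
  refine h1.trans ((mul_le_mul_right h4 _).trans (le_of_eq ?_))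
  rw [← mul_assoc, ← ENNReal.ofReal_mul
    (mul_nonneg (mul_pos hcU hr0).le (Real.rpow_nonneg hK0.le _))]

end Vale.Agent.P223.H440
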