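import Vale.Agent.P223.H440.Tr
import Vale.Agent.P223.H850.CfD

/-! Conformal factors from supersolutions for a general potential. -/

namespace Vale.Agent.P223.H440

open scoped ContDiff InnerProductSpace Topology
open MeasureTheory Vale.Agent.P223.H Vale.Agent.P223.X Vale.Agent.P223.H566
open Vale.Agent.P223.H66 (scX ScGe Cc SobX Vl)

section
variable {n : ℕ} {M X Γ I : Type} [TopologicalSpace M] [TopologicalSpace X]
  [Group Γ] [MulAction Γ X] {C : Cov n M X Γ I} {G : I → E n → Matrix (Fin n) (Fin n) ℝ}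

theorem lapX_exp (hG : MetX C G) {F : X → ℝ} (hF : C.Ck ∞ F) (σ : ℝ) (x : X) :
    lapX C G (fun x => Real.exp (σ * F x)) x =
      Real.exp (σ * F x) * (σ * lapX C G F x + σ ^ 2 * gsX C G F x) := by
  obtain ⟨γ, i, y, -, rfl⟩ := C.cover x
  have h0 : C.Ck 2 (fun x => Real.exp (σ * F x)) := fun γ i =>
    contDiff_infty.1 (contDiff_const.mul (hF γ i)).exp 2
  rw [lapX_eq hG h0, lapX_eq hG (fun γ i => contDiff_infty.1 (hF γ i) 2), gsX_eq hG]
  have h1 : ∀ s : ℝ, HasDerivAt (fun s => Real.exp (σ * s)) (σ * Real.exp (σ * s)) s := fun s => by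
    have := ((hasDerivAt_id s).const_mul σ).exp
    simp only [id, mul_one] at this
    rwa [mul_comm (Real.exp _)] at this
  have h2 : ∀ s : ℝ, HasDerivAt (fun s => σ * Real.exp (σ * s)) (σ * (σ * Real.exp (σ * s))) s :=
    fun s => (h1 s).const_mul σ
  have h3 := B25c.lap_comp (G := G i) (contDiff_infty.1 (hF γ i) 2) h1 h2 y
  have e : C.rep (fun x => Real.exp (σ * F x)) γ i = fun y => Real.exp (σ * C.rep F γ i y) := rfl
  have e2 : F (γ • C.ψ i y) = C.rep F γ i y := rfl
  rw [e, h3, e2]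
  ring

variable [MeasurableSpace M] [BorelSpace M] [Fintype I] [T2Space X] [T2Space M]
  [ConnectedSpace X] {ν : Measure M}

/-- the conformal factor -/
theorem exists_fac (hn : 3 ≤ n) (hG : MetX C G) (hV : VolM C G ν) {S : X → ℝ} (hS : C.Ck ∞ S)
    (hSi : ∀ (γ : Γ) x, S (γ • x) = S x) {δ a σ : ℝ} (hδ : 0 < δ) (hσ : 2 * σ = (n : ℝ) - 2)
    (ha : a = ((n : ℝ) - 2) / (4 * (n - 1))) :
    ∃ F : X → ℝ, C.Ck ∞ F ∧ (∀ (γ : Γ) x, F (γ • x) = F x) ∧
      (∀ x, σ * lapX C G F x + σ ^ 2 * gsX C G F x ≤ a * (S x + Real.exp (2 * F x))) ∧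
      ∫ m, Real.exp (n * C.dn F m) ∂ν ≤ ∫ m, (max 0 (-C.dn S m)) ^ ((n : ℝ) / 2) ∂ν + δ := by
  have hn3 : (3 : ℝ) ≤ n := by exact_mod_cast hn
  have hn2 : (0 : ℝ) < n - 2 := by linarith
  have hn1 : (0 : ℝ) < n - 1 := by linarith
  have hσ0 : 0 < σ := by linarith
  obtain ⟨χ, hχ⟩ := PartX.main n M X Γ I C
  have hfin := IntM.isFiniteMeasure hG hV
  have hcomp := IntM.compactSpace C
  set q : ℝ := ((n : ℝ) + 2) / (n - 2) with hq
  set p : ℝ := 2 * (n : ℝ) / (n - 2) with hp
  set cn : ℝ := 4 * ((n : ℝ) - 1) / (n - 2) with hcn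
  have hp0 : 0 < p := by positivity
  have hq1 : 1 < q := by rw [hq, lt_div_iff₀ hn2]; linarith
  have hcn0 : 0 < cn := by rw [hcn]; apply div_pos _ hn2; linarith
  have hacn : a * cn = 1 := by rw [ha, hcn]; field_simp
  have ha0 : 0 < a := by rw [ha]; apply div_pos <;> linarith
  obtain ⟨φ, δ', h1, h2, h3, h4, h5, h6⟩ := Vale.Agent.P223.H191.iter_strict hn hG hV
    (fun γ i => contDiff_infty.1 (hS γ i) 1) hSi
    (fun κ hκ f hf hfi => H850.LinB.specLin C hG hκ hf hfi) (half_pos hδ)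
  have hφ0 : ∀ x, 0 < φ x := fun x => h3.trans_le (h4 x)
  set I₀ : ℝ := ∫ m, (max 0 (-C.dn S m)) ^ ((n : ℝ) / 2) ∂ν with hI₀
  obtain ⟨ε, hε0, hε⟩ := H850.exists_eps (p := p) (show I₀ + δ / 2 < I₀ + δ by linarith)
  have hSc : Continuous S := ck_cont hS
  obtain ⟨K, hK0, hK⟩ := H850.exists_bound C hSc hSi
  obtain ⟨v, hv, hv0, hvup, hvsup⟩ := H850.exists_super hG hχ hcn0 hq1 hK0 hK h1 h2 hφ0
    (fun x => h3.le.trans (h5 x)) hε0
  set F : X → ℝ := fun x => 1 / σ * Real.log (v x) with hF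
  have hFck : C.Ck ∞ F := fun γ i => contDiff_const.mul ((hv.ck γ i).log fun y => (hv0 _).ne')
  have hFi : ∀ (γ : Γ) x, F (γ • x) = F x := fun γ x => by rw [hF]; simp only [hv.inv]
  have hvF : ∀ x, Real.exp (σ * F x) = v x := fun x => by
    have : σ * F x = Real.log (v x) := by
      rw [hF]
      simp only
      field_simp
    rw [this, Real.exp_log (hv0 x)]
  refine ⟨F, hFck, hFi, fun x => ?_, ?_⟩
  · have e1 := lapX_exp hG hFck σ x
    have e2 : (fun x => Real.exp (σ * F x)) = v := funext hvF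
    rw [e2, hvF] at e1
    have e3 := hvsup x
    have e4 : v x ^ q = v x * Real.exp (2 * F x) := by
      have : Real.exp (2 * F x) = v x ^ (2 / σ) := by
        rw [← hvF x, ← Real.exp_mul]
        congr 1
        field_simp
      rw [this]
      conv_rhs => rw [← Real.rpow_one (v x), ← Real.rpow_mul (hv0 x).le,
        ← Real.rpow_add (hv0 x)]
      congr 1
      have hσ' : σ = ((n : ℝ) - 2) / 2 := by linarith
      rw [hq, hσ']
      field_simp
      ring
    rw [e1, e4] at e3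
    have e5 : 0 ≤ v x * (S x + Real.exp (2 * F x) - cn * (σ * lapX C G F x +
        σ ^ 2 * gsX C G F x)) := by linarith
    have e6 := nonneg_of_mul_nonneg_right e5 (hv0 x)
    have e7 := mul_nonneg ha0.le e6
    have e8 : a * (S x + Real.exp (2 * F x) - cn * (σ * lapX C G F x + σ ^ 2 * gsX C G F x)) =
      a * (S x + Real.exp (2 * F x)) - (a * cn) * (σ * lapX C G F x + σ ^ 2 * gsX C G F x) := by
        ring
    rw [e8, hacn] at e7
    linarith
  · have hci : ∀ g : M → ℝ, Continuous g → Integrable g ν := fun g hgc => by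
      have := hgc.continuousOn.integrableOn_compact (μ := ν) isCompact_univ
      rwa [integrableOn_univ] at this
    have hvc : Continuous (C.dn v) := IntM.continuous_dn C hv.inv hv.cont
    have hφc : Continuous φ := (Ck_zero_iff C).1 fun γ i => (h1 γ i).of_le (by simp)
    have hφdc : Continuous (C.dn φ) := IntM.continuous_dn C h2 hφc
    have hv0' : ∀ m, 0 < C.dn v m := fun m => hv0 _
    have hφ0' : ∀ m, 0 < C.dn φ m := fun m => hφ0 _
    have hvp : Continuous fun m => C.dn v m ^ p := hvc.rpow_const fun m => Or.inr hp0.le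
    have hφp : Continuous fun m => C.dn φ m ^ p := hφdc.rpow_const fun m => Or.inr hp0.le
    have e1 : ∀ m, Real.exp (n * C.dn F m) = C.dn v m ^ p := fun m => by
      change Real.exp (n * F _) = v _ ^ p
      rw [← hvF, ← Real.exp_mul]
      congr 1
      have hσ' : σ = ((n : ℝ) - 2) / 2 := by linarith
      rw [hp, hσ']
      field_simp
    simp only [e1]
    calc ∫ m, C.dn v m ^ p ∂ν ≤ ∫ m, (1 + ε) ^ p * C.dn φ m ^ p ∂ν := by
          refine integral_mono (hci _ hvp) ((hci _ hφp).const_mul _) fun m => ?_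
          simp only
          rw [← Real.mul_rpow (by positivity) (hφ0' m).le]
          exact Real.rpow_le_rpow (hv0' m).le (hvup _) hp0.le
      _ = (1 + ε) ^ p * ∫ m, C.dn φ m ^ p ∂ν := integral_const_mul _ _
      _ ≤ (1 + ε) ^ p * (I₀ + δ / 2) := mul_le_mul_of_nonneg_left h6 (by positivity)
      _ ≤ I₀ + δ := hε

/-- the volume of the conformal metric -/
theorem vl_conf (hG : MetX C G) (hV : VolM C G ν) {χ : I → E n → ℝ} (hχ : Part C χ)
    {F : X → ℝ} (hF : C.Ck ∞ F) (hFi : ∀ (γ : Γ) x, F (γ • x) = F x) :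
    Vl (fun i => confm (C.rep F 1 i) (G i)) χ = ∫ m, Real.exp (n * C.dn F m) ∂ν := by
  have hFc : Continuous (C.dn F) := IntM.continuous_dn C hFi (ck_cont hF)
  have hc : Continuous fun m => Real.exp (n * C.dn F m) :=
    Real.continuous_exp.comp (continuous_const.mul hFc)
  rw [IntM.integral_eq hG hV hχ (g := fun m => Real.exp (n * C.dn F m)) fun i =>
    hc.comp (IntM.β_emb C i).continuous]
  unfold Vl
  refine Finset.sum_congr rfl fun i _ => integral_congr_ae (ae_of_all _ fun y => ?_)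
  have h1 : H.dens (confm (C.rep F 1 i) (G i)) y =
      Real.exp (n * C.rep F 1 i y) * H.dens (G i) y := Conf.confm_dens _ _ y
  have h2 : C.rep F 1 i y = C.dn F (IntM.β C i y) := by
    rw [IntM.dn_β C hFi]
    change F ((1 : Γ) • C.ψ i y) = _
    rw [one_smul]
  simp only
  rw [h1, h2]
  ring

end

end Vale.Agent.P223.H440
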