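import Vale.Agent.P223.H440.Cf2
import Vale.Agent.P223.H440.Sm0
import Vale.Agent.P223.H691.UYW
import Vale.Agent.P223.X.AllU

/-! Theorem U : the Sobolev inequality on `X` with the potential `T Scal⁺ + β` bounds the
simplicial volume by the integral of `(Scal⁻ + β)^(n/2)`. -/

namespace Vale.Agent.P223.H440

open scoped ContDiff InnerProductSpace Topology
open MeasureTheory Vale.Agent.P223.H Vale.Agent.P223.X Vale.Agent.P223.H566
open Vale.Agent.P223.H66 (scX ScGe Cc SobX Vl)
open Vale.Agent.P223.H691 (SobXW)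

theorem rpow_unif {p B δ : ℝ} (hp : 0 < p) (hδ : 0 < δ) : ∃ ε : ℝ, 0 < ε ∧
    ∀ t, 0 ≤ t → t ≤ B → (t + ε) ^ p ≤ t ^ p + δ := by
  have hc : ContinuousOn (fun t : ℝ => t ^ p) (Set.Icc 0 (B + 1)) :=
    (continuous_id.rpow_const fun x => Or.inr hp.le).continuousOn
  have hu := isCompact_Icc.uniformContinuousOn_of_continuous hc
  rw [Metric.uniformContinuousOn_iff] at hu
  obtain ⟨r, hr, h⟩ := hu δ hδ
  set ε := min (r / 2) 1 with hε
  have hε0 : 0 < ε := lt_min (half_pos hr) one_pos
  refine ⟨ε, hε0, fun t ht0 htB => ?_⟩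
  have h1 := h (t + ε) ⟨by linarith, by linarith [min_le_right (r / 2) 1]⟩ t
    ⟨ht0, by linarith⟩ (by
      rw [Real.dist_eq, add_sub_cancel_left, abs_of_pos hε0]
      linarith [min_le_left (r / 2) 1])
  rw [Real.dist_eq] at h1
  linarith [(abs_lt.1 h1).2]

section
variable {n : ℕ} {M X Γ I : Type} [TopologicalSpace M] [TopologicalSpace X]
  [Group Γ] [MulAction Γ X] {C : Cov n M X Γ I} {G : I → E n → Matrix (Fin n) (Fin n) ℝ}
  [Fintype I] [T2Space X] [T2Space M] [ConnectedSpace X] [MeasurableSpace M] [BorelSpace M]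
  [MeasurableSpace X] [BorelSpace X] {μ : Measure X} {ν : Measure M} {χ : I → E n → ℝ}

/-- Theorem U on `X`; `b` is a number which is bounded by the volume form. -/
theorem bound_U (hn : 3 ≤ n) (hG : MetX C G) (hμ : VolX C G μ) (hν : VolM C G ν)
    (hχ : Part C χ) {A : ℝ} (hA : 0 < A) {b : ENNReal}
    (hb : ∀ (G' : I → E n → Matrix (Fin n) (Fin n) ℝ) (μ' : Measure X) (y : ℝ), MetX C G' →
      VolX C G' μ' → 0 < y → ScGe G' 1 → SobX C G' μ' (1 / 4) (1 / 4) y →
      b ≤ ENNReal.ofReal (A * y ^ (-(n : ℝ) / 2) * Vl G' χ))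
    {T y : ℝ} (hT : 1 ≤ T) (hy : 0 < y) {β : M → ℝ} (hβ : Continuous β) (hβ0 : ∀ m, 0 ≤ β m)
    (hsob : SobXW C G μ (fun x => T * max 0 (scX C G x) + β (C.π x)) y) :
    b ≤ ENNReal.ofReal (A * (16 * ((n : ℝ) - 1) / (3 * (n - 2))) ^ ((n : ℝ) / 2) *
      (T / y) ^ ((n : ℝ) / 2)) *
      ENNReal.ofReal (∫ m, (max 0 (-scM C G m) + β m) ^ ((n : ℝ) / 2) ∂ν) := by
  have hn3 : (3 : ℝ) ≤ n := by exact_mod_cast hn
  have hn2 : (0 : ℝ) < n - 2 := by linarith
  have hn1 : (0 : ℝ) < n - 1 := by linarith
  have hfin := IntM.isFiniteMeasure hG hν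
  have hcomp := IntM.compactSpace C
  set p : ℝ := (n : ℝ) / 2 with hp
  have hp0 : 0 < p := by positivity
  set a : ℝ := ((n : ℝ) - 2) / (4 * (n - 1)) with ha
  set σ : ℝ := ((n : ℝ) - 2) / 2 with hσ
  have ha0 : 0 < a := by rw [ha]; positivity
  have ha4 : a ≤ 1 / 4 := by
    rw [ha, div_le_div_iff₀ (by linarith) (by norm_num)]; linarith
  have hT0 : 0 < T := by linarith
  set s : ℝ := a / T with hs
  have hs0 : 0 < s := by positivity
  have hsa : s ≤ a := by
    rw [hs, div_le_iff₀ hT0]; nlinarith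
  have hsT : s * T = a := by rw [hs]; field_simp
  set h0 : M → ℝ := fun m => max 0 (-scM C G m) + β m with hh0
  have hscc : Continuous (scM C G) := ConfX.continuous_scM hG
  have h0c : Continuous h0 := (continuous_const.max hscc.neg).add hβ
  have h00 : ∀ m, 0 ≤ h0 m := fun m => add_nonneg (le_max_left _ _) (hβ0 m)
  have hci : ∀ g : M → ℝ, Continuous g → Integrable g ν := fun g hgc => by
    have := hgc.continuousOn.integrableOn_compact (μ := ν) isCompact_univ
    rwa [integrableOn_univ] at this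
  obtain ⟨B, hB⟩ := isCompact_univ.exists_bound_of_continuousOn (s := (Set.univ : Set M))
    h0c.continuousOn
  have hBm : ∀ m, h0 m ≤ B := fun m => (le_abs_self _).trans (hB m (Set.mem_univ _))
  have hscX : ∀ x, scM C G (C.π x) = scX C G x := fun x => IntM.dn_eq C (ConfX.gl_scal_inv hG) x
  set I0 : ℝ := ∫ m, h0 m ^ p ∂ν with hI0
  have hI00 : 0 ≤ I0 := integral_nonneg fun m => Real.rpow_nonneg (h00 m) _
  set K : ℝ := A * (s * y) ^ (-(n : ℝ) / 2) with hK
  have hK0 : 0 < K := mul_pos hA (Real.rpow_pos_of_pos (by positivity) _)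
  -- the bound up to `δ`
  have key : ∀ δ : ℝ, 0 < δ → b ≤ ENNReal.ofReal (K * ((4 / 3) ^ p * I0 + δ)) := by
    intro δ hδ
    set N : ℝ := ν.real Set.univ + 1 with hN
    have hN0 : 0 < N := by positivity
    obtain ⟨ε, hε, hunif⟩ := rpow_unif (p := p) (B := 4 / 3 * B) (δ := δ / 2 / N) hp0
      (by positivity)
    obtain ⟨v, hv, hv1⟩ := exists_smooth0 hχ (u := fun x => 4 / 3 * h0 (C.π x) + ε / 2)
      ((continuous_const.mul (h0c.comp C.π.continuous)).add continuous_const)
      (fun γ x => by simp only [MetU.π_smul]) (half_pos hε)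
    have hv2 : ∀ x, 4 / 3 * h0 (C.π x) ≤ v x := fun x => by
      have := (abs_le.1 (hv1 x)).1; linarith
    have hv3 : ∀ x, v x ≤ 4 / 3 * h0 (C.π x) + ε := fun x => by
      have := (abs_le.1 (hv1 x)).2; linarith
    set S : X → ℝ := fun x => -v x with hS
    have hSk : C.Ck ∞ S := fun γ i => (hv.ck γ i).neg
    have hSi : ∀ (γ : Γ) x, S (γ • x) = S x := fun γ x => by rw [hS]; simp only [hv.inv]
    obtain ⟨F, hF1, hF2, hF3, hF4⟩ := exists_fac hn hG hν hSk hSi (half_pos hδ)
      (by rw [hσ]; ring : 2 * σ = (n : ℝ) - 2) ha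
    have hG' := ConfX.confm_met hG hF1 hF2
    obtain ⟨-, -, ⟨ν', hν'⟩, -, -⟩ := Vol.main n M X Γ I C
      (fun i => confm (C.rep F 1 i) (G i)) hG'
    obtain ⟨-, ⟨μ', hμ'⟩, -⟩ := Vol.main n M X Γ I C
      (fun i => confm (C.rep F 1 i) (G i)) hG'
    have hsc1 : ∀ x, 0 ≤ h0 (C.π x) ∧ max 0 (-scX C G x) ≤ h0 (C.π x) := fun x => by
      refine ⟨h00 _, ?_⟩
      rw [hh0]
      simp only
      rw [hscX]
      linarith [hβ0 (C.π x)]
    have hVc : Continuous fun x => T * max 0 (scX C G x) + β (C.π x) :=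
      (continuous_const.mul (continuous_const.max (scX_cont' hG))).add
        (hβ.comp C.π.continuous)
    obtain ⟨h5, h6⟩ := sob_conf (S := S) (V := fun x => T * max 0 (scX C G x) + β (C.π x))
      (s := s) (y := y) hn hG hμ hF1 hF2 hμ' (ck_cont hSk) hVc
      (by rw [hσ]; ring : 2 * σ = (n : ℝ) - 2) ha hs0.le (by linarith)
      (fun x => by
        have h1 := hv2 x
        obtain ⟨h2, h3⟩ := hsc1 x
        have h4 := le_max_right 0 (-scX C G x)
        rw [hS]
        simp only
        linarith)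
      (fun x => by
        have h1 := hv2 x
        obtain ⟨h2, h3⟩ := hsc1 x
        have h4 : h0 (C.π x) = max 0 (-scX C G x) + β (C.π x) := by
          rw [hh0]
          simp only
          rw [hscX]
        have h5 : max 0 (scX C G x) - max 0 (-scX C G x) = scX C G x := by
          rcases le_total 0 (scX C G x) with h | h
          · rw [max_eq_right h, max_eq_left (by linarith)]; ring
          · rw [max_eq_left h, max_eq_right (by linarith)]; ring
        have h6 : s * (T * max 0 (scX C G x) + β (C.π x)) ≤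
            a * max 0 (scX C G x) + a * β (C.π x) := by
          rw [mul_add, ← mul_assoc, hsT]
          have := mul_le_mul_of_nonneg_right hsa (hβ0 (C.π x))
          linarith
        have h7 : (1 - s) * a * S x ≤ -(a * h0 (C.π x)) := by
          have h8 : 3 / 4 ≤ 1 - s := by linarith
          have h9 : 0 ≤ a * v x := mul_nonneg ha0.le (by linarith)
          have h10 : a * h0 (C.π x) ≤ 3 / 4 * (a * v x) := by
            have := mul_le_mul_of_nonneg_left h1 ha0.le
            linarith
          have h11 := mul_le_mul_of_nonneg_right h8 h9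
          have h12 : (1 - s) * a * S x = -((1 - s) * (a * v x)) := by rw [hS]; ring
          rw [h12]
          linarith
        have h8 : a * scX C G x = a * max 0 (scX C G x) - a * max 0 (-scX C G x) := by
          rw [← mul_sub, h5]
        rw [h4] at h7
        rw [h8]
        linarith) hF3 (by exact hsob)
    refine (hb _ μ' (s * y) hG' hμ' (by positivity) h5 h6).trans ?_
    refine ENNReal.ofReal_le_ofReal (mul_le_mul_of_nonneg_left ?_ hK0.le)
    rw [vl_conf hG hν hχ hF1 hF2]
    refine hF4.trans ?_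
    have hvd : Continuous (C.dn v) := IntM.continuous_dn C hv.inv hv.cont
    have e1 : ∀ m, max 0 (-C.dn S m) = C.dn v m := fun m => by
      change max 0 (-(-v _)) = v _
      rw [neg_neg]
      refine max_eq_right (le_trans ?_ (hv2 _))
      have := h00 (C.π (Function.surjInv C.surj m))
      positivity
    have e2 : ∀ m, C.dn v m ≤ 4 / 3 * h0 m + ε := fun m => by
      have := hv3 (Function.surjInv C.surj m)
      rw [Function.surjInv_eq C.surj m] at this
      exact this
    have e3 : ∀ m, 0 ≤ C.dn v m := fun m => by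
      rw [← e1]; exact le_max_left _ _
    simp only [e1]
    have e4 : ∫ m, C.dn v m ^ p ∂ν ≤ ∫ m, ((4 / 3) ^ p * h0 m ^ p + δ / 2 / N) ∂ν := by
      refine integral_mono (hci _ (hvd.rpow_const fun m => Or.inr hp0.le))
        (((hci _ (h0c.rpow_const fun m => Or.inr hp0.le)).const_mul _).add
          (integrable_const _)) fun m => ?_
      simp only
      rw [← Real.mul_rpow (by norm_num) (h00 m)]
      refine (Real.rpow_le_rpow (e3 m) (e2 m) hp0.le).trans (hunif _ ?_ ?_)
      · have := h00 m; positivity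
      · have := hBm m; linarith
    rw [integral_add ((hci _ (h0c.rpow_const fun m => Or.inr hp0.le)).const_mul _)
      (integrable_const _), integral_const_mul, integral_const, smul_eq_mul] at e4
    have e5 : ν.real Set.univ * (δ / 2 / N) ≤ δ / 2 := by
      rw [← mul_div_assoc, div_le_iff₀ hN0]
      have : 0 ≤ δ / 2 := by positivity
      have h7 : ν.real Set.univ ≤ N := by rw [hN]; linarith
      nlinarith
    linarith
  -- the limit
  have e : A * (16 * ((n : ℝ) - 1) / (3 * (n - 2))) ^ p * (T / y) ^ p = K * (4 / 3) ^ p := by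
    rw [hK, neg_div, ← hp, Real.rpow_neg (by positivity), ← Real.inv_rpow (by positivity),
      mul_assoc, mul_assoc, ← Real.mul_rpow (by positivity) (by positivity),
      ← Real.mul_rpow (by positivity) (by norm_num)]
    congr 2
    rw [hs, ha]
    field_simp
    ring
  rw [e, ← ENNReal.ofReal_mul (by positivity), mul_assoc]
  change b ≤ ENNReal.ofReal (K * ((4 / 3) ^ p * I0))
  refine ENNReal.le_of_forall_pos_le_add fun ε hε _ => ?_
  have hε' : (0 : ℝ) < ε := by exact_mod_cast hε
  refine (key (ε / K) (by positivity)).trans (le_of_eq ?_)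
  rw [mul_add, mul_div_cancel₀ _ hK0.ne', ENNReal.ofReal_add (by positivity) hε'.le]
  congr 1
  exact ENNReal.ofReal_coe_nnreal

end

end Vale.Agent.P223.H440
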