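import Vale.Agent.P223.H440.AllV
import Vale.Agent.P223.H440.U
import Vale.Agent.P223.H66.Fin3
import Vale.Agent.P223.H441.Bil3
import Vale.Agent.P223.H441.Wvan

/-! Theorem U for manifolds, and the final theorem. -/

namespace Vale.Agent.P223.H440

open scoped ContDiff InnerProductSpace ENNReal
open MeasureTheory Vale.Agent.P223.H Vale.Agent.P223.X Vale.Agent.P223.H566
open Vale.Agent.P223.H66 (ScGe SobX Vl scX YamX HS hS_of scal_eq)

section
variable {n : ℕ}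

/-- the constant of the volume form -/
def IsA (n : ℕ) (A : ℝ) : Prop := 0 < A ∧
  ∀ (M X Γ I : Type) [TopologicalSpace M] [TopologicalSpace X]
  [Group Γ] [MulAction Γ X] [Fintype I] [T2Space X] [ConnectedSpace X] [T2Space M]
  [MeasurableSpace X] [BorelSpace X] (C : Cov n M X Γ I)
  (G : I → E n → Matrix (Fin n) (Fin n) ℝ)
  (_ : SpX C G (H441.Kex n)) (μ : Measure X) (P : PUX C I)
  (χ : I → E n → ℝ) (y : ℝ) (F : (Fin (n + 1) → Γ) → ℝ),
  P.φ = (fun i => C.ex i (χ i)) →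
  (∀ i, C.Ck ∞ (P.φ i)) → VolX C G μ → Part C χ → 0 < y → ScGe G 1 →
  SobX C G μ (1 / 4) (1 / 4) y → Coc F →
  |∑ᶠ l ∈ {l : Fin (n + 1) → Γ × I | (l 0).1 = 1}, P.wt χ l * F (fun k => (l k).1)| ≤
    A * y ^ (-(n : ℝ) / 2) * Vl G χ

theorem exists_A (hn : 3 ≤ n) : ∃ A, IsA n A := by
  obtain ⟨A, hA, h⟩ := specV n (Module.finrank ℂ (H441.Sp n)) hn
    (Nat.pos_of_ne_zero H441.finrank_Sp)
  exact ⟨A, hA, fun M X Γ I _ _ _ _ _ _ _ _ _ _ C G S μ P χ y F =>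
    h M X Γ I (H441.Sp n) C G (H441.Kex n) S μ P χ y F rfl⟩

/-- volume form, `Scal ≥ -1` -/
theorem svX_one {A : ℝ} (hA : IsA n A) (hn : 3 ≤ n) {M X Γ I : Type} [TopologicalSpace M]
    [TopologicalSpace X] [Group Γ] [MulAction Γ X] [Fintype I] [T2Space X]
    [SimplyConnectedSpace X] [T2Space M] [MeasurableSpace X] [BorelSpace X] {C : Cov n M X Γ I}
    {G : I → E n → Matrix (Fin n) (Fin n) ℝ} {χ : I → E n → ℝ} (hinf : ∃ s : ℕ → X, MT.Dist Γ s)
    (S : SpX C G (H441.Kex n)) {μ : Measure X} (hμ : VolX C G μ) (hχ : Part C χ) {y : ℝ}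
    (hy : 0 < y) (hs : ScGe G 1) (hsob : SobX C G μ (1 / 4) (1 / 4) y) :
    svX C ≤ ENNReal.ofReal (A * y ^ (-(n : ℝ) / 2) * Vl G χ) := by
  obtain ⟨Q, hQ', hQ⟩ := H765.exists_pus C hχ
  have h0 : 0 ≤ A * y ^ (-(n : ℝ) / 2) * Vl G χ :=
    mul_nonneg (mul_nonneg hA.1.le (Real.rpow_nonneg hy.le _)) (H66.Vl_nonneg hχ)
  exact H66.specEndB n M X Γ I C χ (by omega) hχ hinf I Q _ h0 fun F hF =>
    hA.2 M X Γ I C G S μ Q χ y F hQ' hQ hμ hχ hy hs hsob hF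

/-- the constant of Theorem U -/
noncomputable def cU (n : ℕ) (A : ℝ) : ℝ :=
  A * (16 * ((n : ℝ) - 1) / (3 * ((n : ℝ) - 2))) ^ ((n : ℝ) / 2)

theorem cU_pos {A : ℝ} (hA : 0 < A) (hn : 3 ≤ n) : 0 < cU n A := by
  have hn3 : (3 : ℝ) ≤ n := by exact_mod_cast hn
  refine mul_pos hA (Real.rpow_pos_of_pos (div_pos ?_ ?_) _) <;> nlinarith

section man
variable {M : Type} [TopologicalSpace M] [CompactSpace M] [T2Space M] [ConnectedSpace M]
  [MeasurableSpace M] [BorelSpace M] {c : M → J.Ch n M} {g : M → J.Mtx n}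

theorem cont_scal (hc : J.Atl c) (hn : 1 ≤ n) (hg : J.Met c g) :
    Continuous fun p => J.scal (g p) (c p p) := by
  have hu := Vale.Agent.P223.X.hu
  obtain ⟨d⟩ := FinalM.exists_data hu hn c hc
  have hM := (hu.met n M d.X d.Γ d.I c d.B d.C hc d.hCB).1 g hg
  have h2 := Final.continuous_scM hM
  refine h2.congr fun p => FinalM.scM_eq hu hc d hg p

/-- THEOREM U, from the Sobolev inequality on `X` -/
theorem sv_U {A : ℝ} (hA : IsA n A) (hn : 3 ≤ n) (hc : J.Atl c)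
    (d : FinalM.Data c) (hS : HS d) (hg : J.Met c g) {ν : Measure M} (hν : J.Vol c g ν)
    [MeasurableSpace d.X] [BorelSpace d.X] {μ : Measure d.X} (hμ : VolX d.C (d.B.G g) μ)
    {T y : ℝ} (hT : 1 ≤ T) (hy : 0 < y) {β : M → ℝ} (hβ : Continuous β) (hβ0 : ∀ m, 0 ≤ β m)
    (hU : H691.SobXW d.C (d.B.G g) μ
      (fun x => T * max 0 (scX d.C (d.B.G g) x) + β (d.C.π x)) y) :
    J.sv c ≤ ENNReal.ofReal (cU n A * (T / y) ^ ((n : ℝ) / 2)) *
      J.L n ν (fun p => J.sn c g p + β p) := by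
  have hu := Vale.Agent.P223.X.hu
  obtain ⟨χ, hχ⟩ := Vale.Agent.P223.X.hb.part n M d.X d.Γ d.I d.C
  have hM := (hu.met n M d.X d.Γ d.I c d.B d.C hc d.hCB).1 g hg
  have hν' := hu.vol n M d.X d.Γ d.I c d.B d.C g ν hc d.hCB hg hν
  have h1 := hu.sv n M d.X d.Γ d.I c d.B d.C hc d.hCB
  have h2 := bound_U hn hM hμ hν' hχ hA.1 (b := svX d.C)
    (fun G' μ' y' h3 h4 h5 h6 h7 => by
      obtain ⟨S⟩ := hS G' h3
      exact svX_one hA hn d.inf S h4 hχ h5 h6 h7) hT hy hβ hβ0 hU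
  refine h1.trans (h2.trans (mul_le_mul_right (le_of_eq ?_) _))
  have hfin := IntM.isFiniteMeasure hM hν'
  have hc1 : Continuous fun m =>
      (max 0 (-scM d.C (d.B.G g) m) + β m) ^ ((n : ℝ) / 2) :=
    ((continuous_const.max (Final.continuous_scM hM).neg).add hβ).rpow_const
      fun _ => Or.inr (by positivity)
  rw [ofReal_integral_eq_lintegral_ofReal
    (hc1.integrable_of_hasCompactSupport (HasCompactSupport.of_compactSpace _))
    (Filter.Eventually.of_forall fun m => Real.rpow_nonneg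
      (add_nonneg (le_max_left _ _) (hβ0 m)) _)]
  unfold J.L J.sn
  simp only [FinalM.scM_eq hu hc d hg]

/-- THEOREM U -/
theorem sv_U' {A : ℝ} (hA : IsA n A) (hn : 3 ≤ n) (hc : J.Atl c)
    (hS : ∃ g₀, J.Met c g₀ ∧ J.CovSpin c g₀) (hg : J.Met c g) {ν : Measure M}
    (hν : J.Vol c g ν) {T y : ℝ} (hT : 1 ≤ T) (hy : 0 < y) {β : M → ℝ} (hβ : Continuous β)
    (hβ0 : ∀ m, 0 ≤ β m)
    (hU : J.UCSobW c g (fun p => T * max 0 (J.scal (g p) (c p p)) + β p) y) :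
    J.sv c ≤ ENNReal.ofReal (cU n A * (T / y) ^ ((n : ℝ) / 2)) *
      J.L n ν (fun p => J.sn c g p + β p) := by
  have hu := Vale.Agent.P223.X.hu
  obtain ⟨d⟩ := FinalM.exists_data hu (by omega) c hc
  have hM := hu.met n M d.X d.Γ d.I c d.B d.C hc d.hCB
  have hm := hM.1 g hg
  let _ : MeasurableSpace d.X := borel d.X
  have : BorelSpace d.X := ⟨rfl⟩
  obtain ⟨-, ⟨μ, hμ⟩, -⟩ := Vale.Agent.P223.X.hb.vol n M d.X d.Γ d.I d.C (d.B.G g) hm
  have h1 := H691.sobXW hc d.hCB hg hμ hU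
  refine sv_U hA hn hc d (hS_of hc d hS) hg hν hμ hT hy hβ hβ0 ?_
  simp only [H691.scX_eq hc d.hCB hg]
  exact h1

/-- metrics which are bilipschitz to a locally conformally flat metric -/
theorem sv_bil {A y₁ : ℝ} (hA : IsA n A) (hn : 3 ≤ n) (hy₁ : 0 < y₁)
    (hB : ∀ (M X Γ I : Type) [TopologicalSpace M]
      [TopologicalSpace X] [Group Γ] [MulAction Γ X] [Fintype I] [T2Space X]
      [SimplyConnectedSpace X] [T2Space M] [MeasurableSpace X] [BorelSpace X]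
      (c : M → J.Ch n M) (B : Box c I) (C : Cov n M X Γ I) (g₁ g : M → J.Mtx n) (μ : Measure X)
      (L : ℝ), J.Atl c → (∀ i z, C.π (C.ψ i z) = B.β i z) → J.Met c g₁ → J.Met c g →
      VolX C (B.G g) μ → J.Lcf c g₁ → J.Bil c g₁ g L → 1 ≤ L →
      H691.SobXW C (B.G g) μ (fun x => max 0 (J.scal (g₁ (C.π x)) (c (C.π x) (C.π x))))
        (y₁ / L ^ n) ∧ ∀ G', MetX C G' → Nonempty (SpX C G' (H441.Kex n)))
    (hc : J.Atl c) (hg : J.Met c g) {ν : Measure M}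
    (hν : J.Vol c g ν) {g₁ : M → J.Mtx n} (hg₁ : J.Met c g₁) (hL : J.Lcf c g₁) {L : ℝ}
    (hL1 : 1 ≤ L) (hb : J.Bil c g₁ g L)
    {T : ℝ} (hT : 1 ≤ T) {β : M → ℝ} (hβ : Continuous β) (hβ0 : ∀ m, 0 ≤ β m)
    (h : ∀ p, J.scal (g₁ p) (c p p) ≤ T * max 0 (J.scal (g p) (c p p)) + β p) :
    J.sv c ≤ ENNReal.ofReal (cU n A * (T / (y₁ / L ^ n)) ^ ((n : ℝ) / 2)) *
      J.L n ν (fun p => J.sn c g p + β p) := by
  have hu := Vale.Agent.P223.X.hu
  obtain ⟨d⟩ := FinalM.exists_data hu (by omega) c hc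
  have hM := hu.met n M d.X d.Γ d.I c d.B d.C hc d.hCB
  have hm := hM.1 g hg
  let _ : MeasurableSpace d.X := borel d.X
  have : BorelSpace d.X := ⟨rfl⟩
  obtain ⟨-, ⟨μ, hμ⟩, -⟩ := Vale.Agent.P223.X.hb.vol n M d.X d.Γ d.I d.C (d.B.G g) hm
  obtain ⟨h1, h2⟩ := hB M d.X d.Γ d.I c d.B d.C g₁ g μ L hc d.hCB hg₁ hg hμ hL hb hL1
  have hL0 : 0 < L := by linarith
  refine sv_U hA hn hc d h2 hg hν hμ hT (div_pos hy₁ (pow_pos hL0 n)) hβ hβ0 ?_
  have s1 := cont_scal hc (by omega) hg₁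
  refine H441.Bil.sobXW_mono hm hμ ((continuous_const.max s1).comp d.C.π.continuous)
    ((continuous_const.mul (continuous_const.max (scX_cont' hm))).add
      (hβ.comp d.C.π.continuous)) (fun x => ?_) h1
  change max 0 (J.scal (g₁ (d.C.π x)) (c (d.C.π x) (d.C.π x))) ≤ _
  have hx0 := hβ0 (d.C.π x)
  have hx1 := le_max_left 0 (scX d.C (d.B.G g) x)
  change _ ≤ T * max 0 (scX d.C (d.B.G g) x) + β (d.C.π x)
  refine max_le ?_ ?_
  · exact add_nonneg (mul_nonneg (by linarith) hx1) hx0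
  · rw [H691.scX_eq hc d.hCB hg]
    exact h _

/-- the conformal class of a metric with `Scal ≤ -s` -/
theorem L_conf (hn : 3 ≤ n) (hc : J.Atl c) (hg : J.Met c g) {μ : Measure M}
    (hμ : J.Vol c g μ) {s κ : ℝ} (hs : 0 < s) (h : ∀ p, J.scal (g p) (c p p) ≤ -s)
    {β : M → ℝ} (hβ0 : ∀ m, 0 ≤ β m) (hκ : ∀ p, J.sn c g p + β p ≤ κ) {f : M → ℝ}
    {μ' : Measure M} (hf : J.Sm c f) (hμ' : J.Vol c (J.conf c f g) μ') :
    J.L n μ (fun p => J.sn c g p + β p) ≤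
      ENNReal.ofReal ((κ / s) ^ ((n : ℝ) / 2)) * J.L n μ' (J.sn c (J.conf c f g)) := by
  have h1 := H66.conf_le hn hc g μ hg hμ s hs h f μ' hf hμ'
  have hn0 : (0 : ℝ) ≤ (n : ℝ) / 2 := by positivity
  have hp : ∀ p, 0 ≤ J.sn c g p + β p := fun p => add_nonneg (le_max_left _ _) (hβ0 p)
  have hκ0 : 0 ≤ κ := by
    obtain ⟨p⟩ : Nonempty M := inferInstance
    exact (hp p).trans (hκ p)
  have h2 : J.L n μ (fun p => J.sn c g p + β p) ≤
      ENNReal.ofReal (κ ^ ((n : ℝ) / 2)) * μ Set.univ := by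
    unfold J.L
    rw [← lintegral_const]
    exact lintegral_mono fun p => ENNReal.ofReal_le_ofReal
      (Real.rpow_le_rpow (hp p) (hκ p) hn0)
  refine h2.trans ?_
  have h3 : κ ^ ((n : ℝ) / 2) = (κ / s) ^ ((n : ℝ) / 2) * s ^ ((n : ℝ) / 2) := by
    rw [← Real.mul_rpow (by positivity) hs.le]
    congr 1
    field_simp
  rw [h3, ENNReal.ofReal_mul (Real.rpow_nonneg (by positivity) _), mul_assoc]
  exact mul_le_mul_right h1 _

end man

end

/-- The final theorem. -/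
theorem final (n : ℕ) (hn : 3 ≤ n) : ∃ A : ℝ, 0 < A ∧
    ∀ (M : Type) [TopologicalSpace M] [CompactSpace M] [T2Space M] [ConnectedSpace M]
      [MeasurableSpace M] [BorelSpace M] (c : M → J.Ch n M), J.Atl c →
      ∀ (g : M → J.Mtx n) (μ : Measure M), J.Met c g → J.Vol c g μ →
      (J.Lcf c g → J.sv c ≤ ENNReal.ofReal A * J.L n μ (J.sn c g)) ∧
      (∀ (g₁ : M → J.Mtx n) (L : ℝ), J.Met c g₁ → J.Lcf c g₁ → 1 ≤ L → J.Bil c g₁ g L →
        J.sv c ≤ ENNReal.ofReal (A * L ^ ((n : ℝ) ^ 2 / 2)) *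
          J.L n μ (fun p => J.sn c g p + max 0 (J.scal (g₁ p) (c p p)))) ∧
      ((∃ g₀, J.Met c g₀ ∧ J.CovSpin c g₀) →
        (J.CovPos c g → J.sv c = 0) ∧
        ∀ (T y : ℝ) (β : M → ℝ), 1 ≤ T → 0 < y → Continuous β → (∀ p, 0 ≤ β p) →
          J.UCSobW c g (fun p => T * max 0 (J.scal (g p) (c p p)) + β p) y →
          J.sv c ≤ ENNReal.ofReal (A * (T / y) ^ ((n : ℝ) / 2)) *
            J.L n μ (fun p => J.sn c g p + β p) ∧
          ∀ s κ : ℝ, 0 < s → (∀ p, J.scal (g p) (c p p) ≤ -s) →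
            (∀ p, J.sn c g p + β p ≤ κ) → ∀ (f : M → ℝ) (μ' : Measure M), J.Sm c f →
            J.Vol c (J.conf c f g) μ' →
            J.sv c ≤ ENNReal.ofReal (A * (T * κ / (s * y)) ^ ((n : ℝ) / 2)) *
              J.L n μ' (J.sn c (J.conf c f g))) := by
  obtain ⟨A, hA⟩ := exists_A hn
  obtain ⟨y₁, hy₁, hB⟩ := H441.Bil.main n hn
  have hcU := cU_pos hA.1 hn
  set r := y₁ ^ (-(n : ℝ) / 2) with hr
  have hr0 : 0 < r := Real.rpow_pos_of_pos hy₁ _
  set A' := cU n A * max 1 r with hA'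
  have hA0 : 0 < A' := mul_pos hcU (lt_max_of_lt_left one_pos)
  have hAr : cU n A * r ≤ A' := mul_le_mul_of_nonneg_left (le_max_right _ _) hcU.le
  have hA1 : cU n A ≤ A' := le_mul_of_one_le_right hcU.le (le_max_left _ _)
  refine ⟨A', hA0, ?_⟩
  intro M _ _ _ _ _ _ c hc g μ hg hμ
  have key : ∀ (g₁ : M → J.Mtx n) (L : ℝ), J.Met c g₁ → J.Lcf c g₁ → 1 ≤ L →
      J.Bil c g₁ g L → ∀ β : M → ℝ, Continuous β → (∀ p, 0 ≤ β p) →
      (∀ p, J.scal (g₁ p) (c p p) ≤ 1 * max 0 (J.scal (g p) (c p p)) + β p) →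
      J.sv c ≤ ENNReal.ofReal (A' * L ^ ((n : ℝ) ^ 2 / 2)) *
        J.L n μ (fun p => J.sn c g p + β p) := by
    intro g₁ L hg₁ hL hL1 hb β hβ hβ0 h
    refine (sv_bil hA hn hy₁ hB hc hg hμ hg₁ hL hL1 hb le_rfl hβ hβ0 h).trans ?_
    refine mul_le_mul_left (ENNReal.ofReal_le_ofReal ?_) _
    have hL0 : 0 < L := by linarith
    have h1 : (1 / (y₁ / L ^ n)) ^ ((n : ℝ) / 2) = r * L ^ ((n : ℝ) ^ 2 / 2) := by
      rw [one_div_div, Real.div_rpow (pow_nonneg hL0.le _) hy₁.le, ← Real.rpow_natCast L n,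
        ← Real.rpow_mul hL0.le, hr, neg_div, Real.rpow_neg hy₁.le, div_eq_inv_mul]
      congr 2
      ring
    rw [h1, ← mul_assoc]
    exact mul_le_mul_of_nonneg_right hAr (Real.rpow_nonneg hL0.le _)
  refine ⟨fun hL => ?_, fun g₁ L hg₁ hL hL1 hb => ?_, fun hS => ⟨fun hW => ?_, ?_⟩⟩
  · have h1 := key g 1 hg hL le_rfl (fun a x _ v => by simp) (fun _ => 0) continuous_const
      (fun _ => le_rfl) (fun p => by simp)
    simpa using h1
  · exact key g₁ L hg₁ hL hL1 hb _ (continuous_const.max (cont_scal hc (by omega) hg₁))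
      (fun p => le_max_left _ _) fun p => by
        have := le_max_left 0 (J.scal (g p) (c p p))
        have := le_max_right 0 (J.scal (g₁ p) (c p p))
        linarith
  · exact H441.wvan (by omega) hc hg hS hW
  · intro T y β hT hy hβ hβ0 hU
    have h1 : J.sv c ≤ ENNReal.ofReal (A' * (T / y) ^ ((n : ℝ) / 2)) *
        J.L n μ (fun p => J.sn c g p + β p) := by
      refine (sv_U' hA hn hc hS hg hμ hT hy hβ hβ0 hU).trans ?_
      refine mul_le_mul_left (ENNReal.ofReal_le_ofReal ?_) _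
      exact mul_le_mul_of_nonneg_right hA1 (Real.rpow_nonneg (by positivity) _)
    refine ⟨h1, fun s κ hs h2 h3 f μ' hf hμ' => ?_⟩
    have h4 := L_conf hn hc hg hμ hs h2 hβ0 h3 hf hμ'
    refine h1.trans ((mul_le_mul_right h4 _).trans (le_of_eq ?_))
    have hκ0 : 0 ≤ κ := by
      obtain ⟨p⟩ : Nonempty M := inferInstance
      exact (add_nonneg (le_max_left _ _) (hβ0 p)).trans (h3 p)
    rw [← mul_assoc, ← ENNReal.ofReal_mul
      (mul_nonneg hA0.le (Real.rpow_nonneg (by positivity) _)), mul_assoc A',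
      ← Real.mul_rpow (by positivity) (by positivity),
      show T / y * (κ / s) = T * κ / (s * y) by field_simp]

end Vale.Agent.P223.H440
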