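import Vale.Agent.P223.H440.NL2
import Vale.Agent.P223.H316.Cpl2

/-! Stage 5: Hamilton's equations, local version; uniqueness. -/

namespace Vale.Agent.P223.H440.NL

open scoped ContDiff Topology Matrix
open Vale.Agent.P223 Vale.Agent.P223.X Filter
open Vale.Agent.P223.H440.NC (deriv_comp_curve mom inv_mom)

section ham
variable {n : ℕ} {G : J.Mtx n} {x : ℝ → J.E n}
variable (hs : ∀ i j, ContDiff ℝ ∞ fun y => G y i j) (hp : ∀ y, (G y).PosDef)

include hs hp in
/-- Hamilton's equations -/
theorem hamilton_at {t : ℝ} (hx : ContDiffAt ℝ ∞ x t) (h : GE G x t) :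
    HasDerivAt (fun s => (x s, mom G x s)) (H765.NC.hv G (x t, mom G x t)) t := by
  have hM := H.Bridge.metricOn hs hp
  have hxd : DifferentiableAt ℝ x t := hx.differentiableAt (by simp)
  refine HasDerivAt.prodMk ?_ ?_
  · rw [hasDerivAt_pi]
    intro i
    refine (hasDeriv1 hx i).congr_deriv ?_
    exact (inv_mom hp t i).symm
  · rw [hasDerivAt_pi]
    intro k
    set P := mom G x t with hP
    set v : J.E n := fun i => deriv (fun s => x s i) t with hv
    have h1 : HasDerivAt (fun s => mom G x s k) (∑ j, ((∑ a, pd a (fun y => G y k j) (x t) * v a) *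
        v j + G (x t) k j * deriv (deriv fun s => x s j) t)) t := by
      unfold mom
      refine HasDerivAt.fun_sum fun j _ => ?_
      exact (deriv_comp_curve ((hs k j).differentiable (by simp) _) hxd).mul (hasDeriv2 hx j)
    refine h1.congr_deriv ?_
    -- the right hand side
    have h2 : J.pd k (fun q => H765.NC.ham G (q, P)) (x t) =
        -∑ i, ∑ j, H.chr G (x t) i k j * P i * v j := by
      have e1 : J.pd k (fun q => H765.NC.ham G (q, P)) (x t) =
          1 / 2 * ∑ i, ∑ j, pd k (fun q => (G q)⁻¹ i j) (x t) * P i * P j := by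
        have hsm := fun i j => hM.sm_inv isOpen_univ (Set.mem_univ (x t)) i j
        have hd : ∀ i j, DifferentiableAt ℝ (fun q => (G q)⁻¹ i j) (x t) := fun i j => (hsm i j).diff
        change H.pd k (fun q => 1 / 2 * ∑ i, ∑ j, (G q)⁻¹ i j * P i * P j) (x t) = _
        have hd2 : ∀ i j, DifferentiableAt ℝ (fun q => (G q)⁻¹ i j * P i * P j) (x t) :=
          fun i j => ((hd i j).mul_const _).mul_const _
        rw [H.Bridge.pd_mul (differentiableAt_const _)
          (DifferentiableAt.fun_sum fun i _ => DifferentiableAt.fun_sum fun j _ => hd2 i j),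
          H.Bridge.pd_const, zero_mul, zero_add,
          H.Bridge.pd_sum fun i _ => DifferentiableAt.fun_sum fun j _ => hd2 i j]
        congr 1
        refine Finset.sum_congr rfl fun i _ => ?_
        rw [H.Bridge.pd_sum fun j _ => hd2 i j]
        refine Finset.sum_congr rfl fun j _ => ?_
        rw [H.Bridge.pd_mul ((hd i j).mul_const _) (differentiableAt_const _),
          H.Bridge.pd_mul (hd i j) (differentiableAt_const _), H.Bridge.pd_const,
          H.Bridge.pd_const]
        change (pd k (fun q => (G q)⁻¹ i j) (x t) * P i + _) * P j + _ = _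
        ring
      rw [e1]
      have e2 : ∀ i j, pd k (fun q => (G q)⁻¹ i j) (x t) = -∑ d, (H.chr G (x t) i k d *
          (G (x t))⁻¹ d j + H.chr G (x t) j k d * (G (x t))⁻¹ i d) := fun i j =>
        hM.pd_inv isOpen_univ (Set.mem_univ _) k i j
      simp only [e2]
      have e3 : ∀ i, ∑ j, (G (x t))⁻¹ i j * P j = v i := fun i => inv_mom hp t i
      have e4 : ∀ j, ∑ i, P i * (G (x t))⁻¹ i j = v j := by
        intro j
        rw [← e3 j]
        refine Finset.sum_congr rfl fun i _ => ?_
        rw [hM.inv_symm (Set.mem_univ _) i j, mul_comm]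
      have e5 : ∑ i, ∑ j, (-∑ d, (H.chr G (x t) i k d * (G (x t))⁻¹ d j +
          H.chr G (x t) j k d * (G (x t))⁻¹ i d)) * P i * P j =
          -((∑ i, ∑ d, H.chr G (x t) i k d * P i * ∑ j, (G (x t))⁻¹ d j * P j) +
            ∑ j, ∑ d, H.chr G (x t) j k d * P j * ∑ i, P i * (G (x t))⁻¹ i d) := by
        rw [neg_add, ← sub_eq_add_neg, eq_sub_iff_add_eq]
        have f1 : ∑ i, ∑ d, H.chr G (x t) i k d * P i * ∑ j, (G (x t))⁻¹ d j * P j =
            ∑ i, ∑ j, ∑ d, H.chr G (x t) i k d * P i * ((G (x t))⁻¹ d j * P j) := by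
          refine Finset.sum_congr rfl fun i _ => ?_
          rw [Finset.sum_comm]
          refine Finset.sum_congr rfl fun j _ => ?_
          rw [Finset.mul_sum]
        have f2 : ∑ j, ∑ d, H.chr G (x t) j k d * P j * ∑ i, P i * (G (x t))⁻¹ i d =
            ∑ i, ∑ j, ∑ d, H.chr G (x t) j k d * P j * (P i * (G (x t))⁻¹ i d) := by
          conv_rhs => rw [Finset.sum_comm]
          refine Finset.sum_congr rfl fun j _ => ?_
          rw [Finset.sum_comm]
          refine Finset.sum_congr rfl fun i _ => ?_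
          rw [Finset.mul_sum]
        rw [f1, f2, ← Finset.sum_neg_distrib, ← Finset.sum_add_distrib]
        refine Finset.sum_congr rfl fun i _ => ?_
        rw [← Finset.sum_neg_distrib, ← Finset.sum_add_distrib]
        refine Finset.sum_congr rfl fun j _ => ?_
        rw [neg_mul, neg_mul, Finset.sum_mul, Finset.sum_mul, ← Finset.sum_neg_distrib,
          ← Finset.sum_neg_distrib, ← Finset.sum_add_distrib]
        refine Finset.sum_congr rfl fun d _ => ?_
        ring
      rw [e5]
      simp only [e3, e4]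
      ring
    change _ = -J.pd k (fun q => H765.NC.ham G (q, P)) (x t)
    rw [h2, neg_neg]
    -- the left hand side
    have e6 : ∀ j a, pd a (fun y => G y k j) (x t) = ∑ i, G (x t) k i * H.chr G (x t) i a j +
        ∑ i, G (x t) j i * H.chr G (x t) i a k := fun j a => H.ConfScal.compat hp (x t) a k j
    have e7 : ∀ j, deriv (deriv fun s => x s j) t = -∑ a, ∑ b, H.chr G (x t) j a b * v a * v b :=
      fun j => h j
    have hPd : ∀ i, P i = ∑ j, G (x t) i j * v j := fun i => rfl
    have hch : ∀ i, ∀ a b, H.chr G (x t) i a b = H.chr G (x t) i b a := fun i a b =>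
      hM.christoffel_symm isOpen_univ (Set.mem_univ _) i a b
    have hsy : ∀ a b, G (x t) a b = G (x t) b a := fun a b => hM.symm (Set.mem_univ _) a b
    rw [Finset.sum_add_distrib]
    simp only [e6, e7]
    have f3 : ∑ j, (∑ a, (∑ i, G (x t) k i * H.chr G (x t) i a j +
        ∑ i, G (x t) j i * H.chr G (x t) i a k) * v a) * v j =
        (∑ j, ∑ a, ∑ i, G (x t) k i * H.chr G (x t) i a j * v a * v j) +
        ∑ i, ∑ a, H.chr G (x t) i k a * (∑ j, G (x t) i j * v j) * v a := by
      have g1 : ∑ i, ∑ a, H.chr G (x t) i k a * (∑ j, G (x t) i j * v j) * v a =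
          ∑ j, ∑ a, ∑ i, G (x t) j i * H.chr G (x t) i a k * v a * v j := by
        rw [Finset.sum_comm]
        conv_rhs => rw [Finset.sum_comm]
        refine Finset.sum_congr rfl fun a _ => ?_
        have : ∀ i, H.chr G (x t) i k a * (∑ j, G (x t) i j * v j) * v a =
            ∑ j, G (x t) j i * H.chr G (x t) i a k * v a * v j := by
          intro i
          rw [Finset.mul_sum, Finset.sum_mul]
          refine Finset.sum_congr rfl fun j _ => ?_
          rw [hch i k a, hsy i j]
          ring
        simp only [this]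
        rw [Finset.sum_comm]
      rw [g1, ← Finset.sum_add_distrib]
      refine Finset.sum_congr rfl fun j _ => ?_
      rw [Finset.sum_mul, ← Finset.sum_add_distrib]
      refine Finset.sum_congr rfl fun a _ => ?_
      rw [add_mul, add_mul, Finset.sum_mul, Finset.sum_mul, Finset.sum_mul, Finset.sum_mul]
    have f4 : ∑ j, G (x t) k j * -∑ a, ∑ b, H.chr G (x t) j a b * v a * v b =
        -∑ j, ∑ a, ∑ i, G (x t) k i * H.chr G (x t) i a j * v a * v j := by
      simp only [mul_neg, Finset.sum_neg_distrib, Finset.mul_sum]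
      congr 1
      rw [Finset.sum_comm]
      have : ∀ a, ∑ j, ∑ b, G (x t) k j * (H.chr G (x t) j a b * v a * v b) =
          ∑ b, ∑ j, G (x t) k j * H.chr G (x t) j a b * v a * v b := by
        intro a
        rw [Finset.sum_comm]
        refine Finset.sum_congr rfl fun b _ => Finset.sum_congr rfl fun j _ => ?_
        ring
      simp only [this]
      rw [Finset.sum_comm]
    rw [f3, f4]
    simp only [hPd]
    ring

end ham

section uniq
open Set Metric
variable {W : Type} [NormedAddCommGroup W] [NormedSpace ℝ W] [FiniteDimensional ℝ W] {F : W → W}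

/-- uniqueness of solutions on an interval -/
theorem sol_unique_Ioo (hF : ContDiff ℝ 1 F) {f g : ℝ → W} {α β : ℝ} (h0 : (0 : ℝ) ∈ Ioo α β)
    (hf : ∀ t ∈ Ioo α β, HasDerivAt f (F (f t)) t)
    (hg : ∀ t ∈ Ioo α β, HasDerivAt g (F (g t)) t) (h : f 0 = g 0) :
    ∀ t ∈ Ioo α β, f t = g t := by
  intro t ht
  obtain ⟨h1, h2⟩ := h0
  obtain ⟨h3, h4⟩ := ht
  set a := (α + min 0 t) / 2 with ha
  set b := (β + max 0 t) / 2 with hb
  have m1 : α < min 0 t := lt_min h1 h3
  have m2 : max 0 t < β := max_lt h2 h4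
  have hsub : Icc a b ⊆ Ioo α β := fun s hs => ⟨by linarith [hs.1], by linarith [hs.2]⟩
  have hfc : ContinuousOn f (Icc a b) := fun s hs =>
    (hf s (hsub hs)).continuousAt.continuousWithinAt
  have hgc : ContinuousOn g (Icc a b) := fun s hs =>
    (hg s (hsub hs)).continuousAt.continuousWithinAt
  obtain ⟨R₁, r1⟩ := isCompact_Icc.exists_bound_of_continuousOn hfc
  obtain ⟨R₂, r2⟩ := isCompact_Icc.exists_bound_of_continuousOn hgc
  obtain ⟨K, hK, -, hK2⟩ := H316.lip_ball hF (max R₁ R₂)
  have hl : LipschitzOnWith (Real.toNNReal K) F (closedBall 0 (max R₁ R₂)) :=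
    LipschitzOnWith.of_dist_le_mul fun x hx y hy => by
      rw [dist_eq_norm, dist_eq_norm, Real.coe_toNNReal _ (by linarith)]
      exact hK2 x hx y hy
  have m3 := min_le_left 0 t
  have m4 := min_le_right 0 t
  have m5 := le_max_left 0 t
  have m6 := le_max_right 0 t
  have h5 := ODE_solution_unique_of_mem_Ioo (v := fun _ => F)
    (s := fun _ => closedBall 0 (max R₁ R₂)) (a := a) (b := b) (t₀ := 0)
    (fun _ _ => hl) ⟨by linarith, by linarith⟩
    (fun s hs => ⟨hf s (hsub ⟨hs.1.le, hs.2.le⟩), mem_closedBall_zero_iff.2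
      ((r1 s ⟨hs.1.le, hs.2.le⟩).trans (le_max_left _ _))⟩)
    (fun s hs => ⟨hg s (hsub ⟨hs.1.le, hs.2.le⟩), mem_closedBall_zero_iff.2
      ((r2 s ⟨hs.1.le, hs.2.le⟩).trans (le_max_right _ _))⟩) h
  exact h5 ⟨by linarith, by linarith⟩

end uniq

end Vale.Agent.P223.H440.NL
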